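import Vale.Agent.P110.Exist.Defs

/-! # Blocks of signs from ultraflat polynomials, with summable errors -/

namespace Vale.Agent.P130.Morse

open Finset

/-- The sign of a bit. -/
def sgn (s : Bool) : ℂ := if s then -1 else 1

/-- Ultraflat sign polynomials give blocks starting with `+1` whose errors are summable. -/
theorem exists_blocks (hU : P110.Exist.UltraflatGoal) :
    ∃ (q : ℕ → ℕ) (b : ℕ → ℕ → Bool) (c : ℕ → ℝ), (∀ n, 2 ≤ q n) ∧ (∀ n, b n 0 = false) ∧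
      (∀ n, 0 ≤ c n) ∧ Summable c ∧ ∑' n, c n ≤ 1 / 4 ∧ ∀ n (z : ℂ), ‖z‖ = 1 →
        |‖∑ j ∈ Finset.range (q n), sgn (b n j) * z ^ j‖ / Real.sqrt (q n) - 1| ≤ c n := by
  have hgeo : HasSum (fun n : ℕ => (1 / 8 : ℝ) * (1 / 2) ^ n) (1 / 4) := by
    have h := hasSum_geometric_two.mul_left (1 / 8 : ℝ)
    rwa [show (1 / 8 : ℝ) * 2 = 1 / 4 by norm_num] at h
  choose q hq b hb using fun n : ℕ => hU ((1 / 8 : ℝ) * (1 / 2) ^ n) (by positivity) 2
  let b₀ : ℕ → ℕ → Bool := fun n j => if h : j < q n then b n ⟨j, h⟩ else false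
  refine ⟨q, fun n j => xor (b₀ n j) (b₀ n 0), fun n => (1 / 8 : ℝ) * (1 / 2) ^ n, hq,
    fun n => Bool.xor_self _, fun n => by positivity, hgeo.summable, le_of_eq hgeo.tsum_eq,
    fun n z hz => ?_⟩
  obtain ⟨θ, rfl⟩ : ∃ θ : ℝ, Complex.exp (θ * Complex.I) = z := by
    refine ⟨Complex.arg z, ?_⟩
    have h := Complex.norm_mul_exp_arg_mul_I z
    rwa [hz, Complex.ofReal_one, one_mul] at h
  have hterm : ∀ j ∈ range (q n),
      sgn (xor (b₀ n j) (b₀ n 0)) * Complex.exp (θ * Complex.I) ^ j = -sgn (b₀ n 0) *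
        ((P110.signSeq (b n) j : ℝ) * Complex.exp ((j : ℂ) * Complex.I * (θ : ℂ))) := by
    intro j hj
    have hj' := mem_range.1 hj
    rw [← Complex.exp_nat_mul, show (j : ℂ) * ((θ : ℂ) * Complex.I) =
      (j : ℂ) * Complex.I * (θ : ℂ) by ring, ← mul_assoc]
    congr 1
    simp only [b₀, P110.signSeq, dif_pos hj']
    generalize (if h : 0 < q n then b n ⟨0, h⟩ else false) = s
    cases s <;> cases b n ⟨j, hj'⟩ <;> simp [sgn]
  rw [sum_congr rfl hterm, ← mul_sum, norm_mul,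
    show ‖-sgn (b₀ n 0)‖ = 1 by cases b₀ n 0 <;> simp [sgn], one_mul]
  have hsq : 0 < Real.sqrt (q n) :=
    Real.sqrt_pos.2 (Nat.cast_pos.2 (lt_of_lt_of_le two_pos (hq n)))
  obtain ⟨h1, h2⟩ := hb n θ
  unfold P110.evalP at h1 h2
  rw [abs_le]
  constructor
  · rw [neg_le_sub_iff_le_add, ← sub_le_iff_le_add, le_div_iff₀ hsq]; linarith
  · rw [sub_le_iff_le_add, div_le_iff₀ hsq]; linarith

end Vale.Agent.P130.Morse
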