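import Vale.Agent.P130.Morse.System

/-!
# Tower vectors and characters span

Functions of one level and the sign form a dense subalgebra of the continuous functions, and each
of them is a combination of tower vectors and characters.
-/

noncomputable section

namespace Vale.Agent.P130.Morse

open MeasureTheory Filter Topology

namespace Data

variable (D : Data)

lemma continuous_levSign (n : ℕ) : Continuous fun p : D.X => (D.lev n p.1, p.2) :=
  ((D.continuous_lev n).comp continuous_fst).prodMk continuous_snd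

/-- The continuous functions depending on one level and the sign only. -/
def simple : StarSubalgebra ℂ C(D.X, ℂ) where
  carrier := {f | ∃ n, ∀ p r : D.X, D.lev n p.1 = D.lev n r.1 → p.2 = r.2 → f p = f r}
  mul_mem' := by
    rintro f g ⟨n, hn⟩ ⟨m, hm⟩
    refine ⟨max n m, fun p r h h' => ?_⟩
    have hn' := hn p r (by rw [← D.lev_mod_of_le (le_max_left n m) p.1, h,
      D.lev_mod_of_le (le_max_left n m) r.1]) h'
    have hm' := hm p r (by rw [← D.lev_mod_of_le (le_max_right n m) p.1, h,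
      D.lev_mod_of_le (le_max_right n m) r.1]) h'
    simp [hn', hm']
  add_mem' := by
    rintro f g ⟨n, hn⟩ ⟨m, hm⟩
    refine ⟨max n m, fun p r h h' => ?_⟩
    have hn' := hn p r (by rw [← D.lev_mod_of_le (le_max_left n m) p.1, h,
      D.lev_mod_of_le (le_max_left n m) r.1]) h'
    have hm' := hm p r (by rw [← D.lev_mod_of_le (le_max_right n m) p.1, h,
      D.lev_mod_of_le (le_max_right n m) r.1]) h'
    simp [hn', hm']
  one_mem' := ⟨0, fun _ _ _ _ => rfl⟩
  zero_mem' := ⟨0, fun _ _ _ _ => rfl⟩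
  algebraMap_mem' _ := ⟨0, fun _ _ _ _ => rfl⟩
  star_mem' := by
    rintro f ⟨n, hn⟩
    exact ⟨n, fun p r h h' => congrArg star (hn p r h h')⟩

lemma simple_separates : D.simple.toSubalgebra.SeparatesPoints := by
  intro p r hne
  obtain ⟨n, hn⟩ : ∃ n, (D.lev n p.1, p.2) ≠ (D.lev n r.1, r.2) := by
    by_contra! h
    exact hne (Prod.ext (D.ext_lev fun n => (Prod.ext_iff.1 (h n)).1) (Prod.ext_iff.1 (h 0)).2)
  let f : C(D.X, ℂ) := ⟨fun t => if (D.lev n t.1, t.2) = (D.lev n p.1, p.2) then 1 else 0,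
    (continuous_of_discreteTopology (f := fun a : ℕ × Bool =>
      if a = (D.lev n p.1, p.2) then (1 : ℂ) else 0)).comp (D.continuous_levSign n)⟩
  refine ⟨⇑f, ⟨f, ⟨n, fun a b h h' => ?_⟩, rfl⟩, ?_⟩
  · simp [f, h, h']
  · simp only [f, ContinuousMap.coe_mk, if_pos, if_neg hn.symm]
    exact one_ne_zero

/-- A closed subspace containing the tower vectors and the characters is everything. -/
theorem eq_top_of_mem (S : Submodule ℂ (Lp ℂ 2 D.μ)) (hS : IsClosed (S : Set (Lp ℂ 2 D.μ)))
    (hG : ∀ n, ∀ i < D.h n, D.G n i ∈ S) (hchi : ∀ n w hw, D.chi n w hw ∈ S) : S = ⊤ := by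
  let L : C(D.X, ℂ) →L[ℂ] Lp ℂ 2 D.μ := ContinuousMap.toLp 2 D.μ ℂ
  have hsub : ∀ f ∈ D.simple, L f ∈ S := by
    rintro f ⟨n, hn⟩
    let F : ℕ → Bool → ℂ := fun l s => f (D.pt l, s)
    have hF : ∀ p : D.X, f p = F (D.lev n p.1) p.2 := fun p =>
      hn p _ (by rw [lev_pt, Nat.mod_eq_of_lt (D.lev_lt n p.1)]) rfl
    obtain ⟨ζ, hζ⟩ : ∃ ζ : ℂ, IsPrimitiveRoot ζ (D.h n) :=
      ⟨_, Complex.isPrimitiveRoot_exp _ (D.h_pos n).ne'⟩
    have hinj : Set.InjOn (fun l => ζ ^ l) (Finset.range (D.h n) : Finset ℕ) :=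
      fun a ha b hb hab => hζ.pow_inj (Finset.mem_range.1 ha) (Finset.mem_range.1 hb) hab
    let P := Lagrange.interpolate (Finset.range (D.h n)) (fun l => ζ ^ l)
      fun l => (F l false + F l true) / 2
    have hroot : ∀ k : ℕ, (ζ ^ k) ^ D.h n = 1 := fun k => by
      rw [← pow_mul, mul_comm, pow_mul, hζ.pow_eq_one, one_pow]
    have hP : ∀ l < D.h n,
        ∑ k ∈ Finset.range (D.h n), P.coeff k * (ζ ^ k) ^ l = (F l false + F l true) / 2 := by
      intro l hl
      have hev : P.eval (ζ ^ l) = (F l false + F l true) / 2 :=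
        Lagrange.eval_interpolate_at_node _ hinj (Finset.mem_range.2 hl)
      have hdeg : P.natDegree < D.h n := by
        by_cases h0 : P = 0
        · rw [h0, Polynomial.natDegree_zero]; exact D.h_pos n
        · refine (Polynomial.natDegree_lt_iff_degree_lt h0).2 ?_
          have hd := Lagrange.degree_interpolate_lt (fun l => (F l false + F l true) / 2) hinj
          rw [Finset.card_range] at hd
          exact hd
      rw [← hev, Polynomial.eval_eq_sum_range' hdeg]
      exact Finset.sum_congr rfl fun k _ => by rw [← pow_mul, ← pow_mul, mul_comm k]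
    let c : ℕ → ℂ := fun l =>
      (F l false - F l true) / 2 * sgn (D.beta n l) / (Real.sqrt (D.h n) : ℂ)
    let E : Lp ℂ 2 D.μ := ∑ k ∈ Finset.range (D.h n), P.coeff k • D.chi n (ζ ^ k) (hroot k) +
      ∑ l ∈ Finset.range (D.h n), c l • D.G n l
    have hmem : E ∈ S := S.add_mem (S.sum_mem fun k _ => S.smul_mem _ (hchi _ _ _))
      (S.sum_mem fun l hl => S.smul_mem _ (hG n l (Finset.mem_range.1 hl)))
    suffices h : L f = E by rw [h]; exact hmem
    refine Lp.ext ?_
    have h1 : ∀ᵐ p ∂D.μ, ∀ k : ℕ,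
        ((P.coeff k • D.chi n (ζ ^ k) (hroot k) : Lp ℂ 2 D.μ)) p =
          P.coeff k * D.ch n (ζ ^ k) p := by
      rw [ae_all_iff]
      intro k
      filter_upwards [Lp.coeFn_smul (P.coeff k) (D.chi n (ζ ^ k) (hroot k)),
        (D.memLp_ch n (hroot k)).coeFn_toLp] with p e1 e2
      rw [e1, Pi.smul_apply, chi, e2, smul_eq_mul]
    have h2 : ∀ᵐ p ∂D.μ, ∀ l : ℕ, ((c l • D.G n l : Lp ℂ 2 D.μ)) p = c l * D.g n l p := by
      rw [ae_all_iff]
      intro l
      filter_upwards [Lp.coeFn_smul (c l) (D.G n l), (D.memLp_g n l).coeFn_toLp] with p e1 e2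
      rw [e1, Pi.smul_apply, G, e2, smul_eq_mul]
    filter_upwards [h1, h2, ContinuousMap.coeFn_toLp (p := 2) (𝕜 := ℂ) D.μ f,
      Lp.coeFn_add (∑ k ∈ Finset.range (D.h n), P.coeff k • D.chi n (ζ ^ k) (hroot k))
        (∑ l ∈ Finset.range (D.h n), c l • D.G n l),
      Lp.coeFn_finsetSum (Finset.range (D.h n))
        (fun k => P.coeff k • D.chi n (ζ ^ k) (hroot k)),
      Lp.coeFn_finsetSum (Finset.range (D.h n)) (fun l => c l • D.G n l)]
      with p e1 e2 eL eA eS eT
    rw [eL, eA, Pi.add_apply, eS, eT]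
    simp only [Finset.sum_apply, e1, e2, ch]
    rw [hP _ (D.lev_lt n p.1), hF p,
      Finset.sum_eq_single_of_mem (D.lev n p.1) (Finset.mem_range.2 (D.lev_lt n p.1))
        (fun l _ hl => by rw [g, if_neg hl.symm, mul_zero])]
    simp only [g, if_true, c]
    have hh : (Real.sqrt (D.h n) : ℂ) ≠ 0 := Complex.ofReal_ne_zero.2
      (Real.sqrt_ne_zero'.2 (Nat.cast_pos.2 (D.h_pos n)))
    field_simp
    rw [mul_assoc, sgn_mul]
    cases p.2 <;> cases D.beta n (D.lev n p.1) <;> simp [sgn] <;> ring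
  have hd : DenseRange L := ContinuousMap.toLp_denseRange ℂ D.μ ℂ (by norm_num)
  have hA : Dense (D.simple : Set C(D.X, ℂ)) := by
    have h := ContinuousMap.starSubalgebra_topologicalClosure_eq_top_of_separatesPoints
      D.simple D.simple_separates
    rw [dense_iff_closure_eq, ← StarSubalgebra.topologicalClosure_coe, h]
    rfl
  have hdense : Dense (L '' (D.simple : Set C(D.X, ℂ))) := hd.dense_image L.continuous hA
  exact SetLike.coe_injective (Set.eq_univ_of_univ_subset
    (hdense.closure_eq.symm.subset.trans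
      (hS.closure_subset_iff.2 (by rintro _ ⟨f, hf, rfl⟩; exact hsub f hf))))

end Data

end Vale.Agent.P130.Morse
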