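import Mathlib

/-!
# The Koopman unitary of an invertible measure-preserving transformation

Orthonormal orbits are orthogonal to all eigenfunctions, and the transformation is ergodic as soon
as an orthonormal orbit and eigenfunctions with distinct eigenvalues span.
-/

noncomputable section

namespace Vale.Agent.P130.Morse

open MeasureTheory Filter Topology
open scoped InnerProductSpace

variable {α : Type*} [MeasurableSpace α] {μ : Measure α} (T : α ≃ᵐ α)
  (hT : MeasurePreserving T μ μ)

/-- The Koopman operator as a linear isometric equivalence. -/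
def koopmanEquiv : Lp ℂ 2 μ ≃ₗᵢ[ℂ] Lp ℂ 2 μ :=
  LinearIsometryEquiv.ofSurjective (Lp.compMeasurePreservingₗᵢ ℂ T hT) fun g => by
    refine ⟨Lp.compMeasurePreserving T.symm hT.symm g, ?_⟩
    show Lp.compMeasurePreserving T hT (Lp.compMeasurePreserving T.symm hT.symm g) = g
    rw [← Lp.compMeasurePreserving_comp_apply]
    simp only [show (T.symm : α → α) ∘ T = id from funext fun x => T.symm_apply_apply x]
    exact Lp.compMeasurePreserving_id_apply g

/-- The Koopman operator as a unitary. -/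
def koopman : unitary (Lp ℂ 2 μ →L[ℂ] Lp ℂ 2 μ) :=
  Unitary.linearIsometryEquiv.symm (koopmanEquiv T hT)

lemma koopman_apply (g : Lp ℂ 2 μ) :
    (koopman T hT : Lp ℂ 2 μ →L[ℂ] Lp ℂ 2 μ) g = Lp.compMeasurePreserving T hT g := rfl

lemma koopman_toLp {g : α → ℂ} (hg : MemLp g 2 μ) :
    (koopman T hT : Lp ℂ 2 μ →L[ℂ] Lp ℂ 2 μ) (hg.toLp g) =
      (hg.comp_measurePreserving hT).toLp _ := rfl

/-- An eigenvector of a unitary is orthogonal to an orthonormal orbit. -/
lemma eigen_orthogonal {H : Type*} [NormedAddCommGroup H] [InnerProductSpace ℂ H]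
    (e : H →ₗᵢ[ℂ] H) {F : ℤ → H} (hF : Orthonormal ℂ F) (hstep : ∀ n, e (F n) = F (n + 1))
    {g : H} {a : ℂ} (hg : e g = a • g) (n : ℤ) : ⟪g, F n⟫_ℂ = 0 := by
  by_cases hg0 : g = 0
  · simp [hg0]
  have ha : ‖a‖ = 1 := by
    have h := e.norm_map g
    rw [hg, norm_smul] at h
    exact mul_right_cancel₀ (norm_ne_zero_iff.2 hg0) (by rw [h, one_mul])
  have h1 : ∀ m, ‖⟪g, F (m + 1)⟫_ℂ‖ = ‖⟪g, F m⟫_ℂ‖ := fun m => by
    have h := e.inner_map_map g (F m)
    rw [hg, hstep, inner_smul_left] at h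
    rw [← h, norm_mul, Complex.norm_conj, ha, one_mul]
  have h2 : ∀ k : ℕ, ‖⟪g, F (n + k)⟫_ℂ‖ = ‖⟪g, F n⟫_ℂ‖ := by
    intro k
    induction k with
    | zero => simp
    | succ k ih => rw [Nat.cast_succ, ← add_assoc, h1, ih]
  have h3 := (hF.comp (fun k : ℕ => n + k) fun a b hab => by simpa using hab).inner_products_summable g
  simp only [Function.comp_apply, norm_inner_symm _ g, h2] at h3
  simpa using tendsto_nhds_unique (tendsto_const_nhds (f := (atTop : Filter ℕ)))
    h3.tendsto_atTop_zero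

/-- An invariant vector is orthogonal to every other eigenvector. -/
lemma invariant_orthogonal {H : Type*} [NormedAddCommGroup H] [InnerProductSpace ℂ H]
    (e : H →ₗᵢ[ℂ] H) {f g : H} {a : ℂ} (hf : e f = f) (hg : e g = a • g) (ha : a ≠ 1) :
    ⟪f, g⟫_ℂ = 0 := by
  have h := e.inner_map_map f g
  rw [hf, hg, inner_smul_right] at h
  exact (mul_left_eq_self₀.1 h).resolve_left ha

end Vale.Agent.P130.Morse
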