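import Vale.Agent.P130.Morse.Dense

/-!
# A Lebesgue component of multiplicity one from ultraflat sign polynomials
-/

noncomputable section

namespace Vale.Agent.P130.Morse

open MeasureTheory Filter Topology
open scoped InnerProductSpace

/-- A transformation whose Koopman operator is one bilateral shift plus eigenfunctions. -/
def ShiftPlusEigen {α : Type} [MeasurableSpace α] (μ : Measure α) (T : α ≃ᵐ α)
    (hT : MeasurePreserving T μ μ) : Prop :=
  ∃ F : ℤ → Lp ℂ 2 μ,
    (∀ n, Lp.compMeasurePreserving T hT (F n) = F (n + 1)) ∧ Orthonormal ℂ F ∧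
    (∀ g : Lp ℂ 2 μ, (∃ a : ℂ, Lp.compMeasurePreserving T hT g = a • g) → ∀ n, ⟪g, F n⟫_ℂ = 0) ∧
    (Submodule.span ℂ (Set.range F ∪
      {g | ∃ a : ℂ, Lp.compMeasurePreserving T hT g = a • g})).topologicalClosure = ⊤

namespace Data

variable (D : Data)

/-- Flat blocks give the decomposition and ergodicity. -/
theorem shiftPlusEigen {c : ℕ → ℝ} (hc0 : ∀ n, 0 ≤ c n) (hc : Summable c ∧ ∑' n, c n ≤ 1 / 4)
    (hflat : ∀ n (z : ℂ), ‖z‖ = 1 →
      |‖∑ j ∈ Finset.range (D.q n), sgn (D.b n j) * z ^ j‖ / Real.sqrt (D.q n) - 1| ≤ c n) :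
    ShiftPlusEigen D.μ D.T D.measurePreserving_T ∧ Ergodic D.T D.μ := by
  obtain ⟨v, hv, hspan⟩ := (D.flat hc0 hc hflat).exists_lebesgue
  let e := Lp.compMeasurePreservingₗᵢ (E := ℂ) (p := 2) ℂ D.T D.measurePreserving_T
  let F : ℤ → Lp ℂ 2 D.μ := fun k =>
    ((D.u ^ k : unitary (Lp ℂ 2 D.μ →L[ℂ] Lp ℂ 2 D.μ)) : Lp ℂ 2 D.μ →L[ℂ] Lp ℂ 2 D.μ) v
  have hstep : ∀ k, e (F k) = F (k + 1) := fun k => by
    show (D.u : Lp ℂ 2 D.μ →L[ℂ] Lp ℂ 2 D.μ) (F k) = _
    rw [← mul_apply_eq_comp, ← Submonoid.coe_mul, ← zpow_one_add, add_comm]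
  have hchi : ∀ n w hw, e (D.chi n w hw) = w⁻¹ • D.chi n w hw := fun n w hw => D.u_chi hw
  -- a closed subspace containing the orbit and the characters is everything
  have htop : ∀ S : Submodule ℂ (Lp ℂ 2 D.μ), IsClosed (S : Set (Lp ℂ 2 D.μ)) →
      (∀ k, F k ∈ S) → (∀ n w hw, D.chi n w hw ∈ S) → S = ⊤ := by
    intro S hS hF hC
    refine D.eq_top_of_mem S hS (fun n i hi => ?_) hC
    have h1 : D.G n i ∈ orbitSpan D.u (fun m => D.G m 0) := by
      rw [← D.pow_u_G n i hi, ← zpow_natCast]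
      exact mem_orbitSpan (f := fun m => D.G m 0) _ n
    rw [← hspan] at h1
    exact orbitSpan_le hS (fun k _ => hF k) h1
  refine ⟨⟨F, hstep, hv, fun g ⟨a, ha⟩ n => eigen_orthogonal e hv hstep ha n, ?_⟩, ?_⟩
  · exact htop _ (Submodule.isClosed_topologicalClosure _)
      (fun k => Submodule.le_topologicalClosure _ (Submodule.subset_span (Or.inl ⟨k, rfl⟩)))
      (fun n w hw => Submodule.le_topologicalClosure _
        (Submodule.subset_span (Or.inr ⟨w⁻¹, hchi n w hw⟩)))
  · refine ⟨D.measurePreserving_T, ⟨fun s hs hinv => ?_⟩⟩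
    set f := indicatorConstLp 2 hs (measure_ne_top D.μ s) (1 : ℂ) with hf
    set one := D.chi 0 1 (one_pow _) with hone
    have hef : e f = f := by
      refine Lp.ext ?_
      filter_upwards [Lp.coeFn_compMeasurePreserving f D.measurePreserving_T,
        D.measurePreserving_T.quasiMeasurePreserving.ae_eq
          (indicatorConstLp_coeFn (p := 2) (μ := D.μ) (hs := hs) (hμs := measure_ne_top D.μ s)
            (c := (1 : ℂ))),
        indicatorConstLp_coeFn (p := 2) (μ := D.μ) (hs := hs) (hμs := measure_ne_top D.μ s)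
          (c := (1 : ℂ))] with p h1 h2 h3
      show (Lp.compMeasurePreserving D.T D.measurePreserving_T f) p = f p
      rw [h1, h2, h3, Function.comp_apply]
      classical
      simp only [Set.indicator_apply]
      exact if_congr (by rw [← Set.mem_preimage, hinv]) rfl rfl
    have heone : e one = one := by rw [hone, hchi, inv_one, one_smul]
    have honeone : ⟪one, one⟫_ℂ = 1 := by
      rw [L2.inner_def, integral_congr_ae (g := fun _ => (1 : ℂ)) ?_]
      · simp
      · filter_upwards [(D.memLp_ch 0 (one_pow (D.h 0))).coeFn_toLp] with p h1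
        rw [hone, chi, h1]
        simp [ch]
    set r := f - ⟪one, f⟫_ℂ • one with hr
    have her : e r = r := by rw [hr, map_sub, map_smul, hef, heone]
    have hrone : ⟪one, r⟫_ℂ = 0 := by
      rw [hr, inner_sub_right, inner_smul_right, honeone, mul_one, sub_self]
    have horth : LinearMap.ker (innerSL ℂ r : Lp ℂ 2 D.μ →ₗ[ℂ] ℂ) = ⊤ := by
      refine htop _ (isClosed_eq (innerSL ℂ r).continuous continuous_const)
        (fun k => eigen_orthogonal e hv hstep (a := 1) (by rw [her, one_smul]) k) fun n w hw => ?_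
      show ⟪r, D.chi n w hw⟫_ℂ = 0
      by_cases hw1 : w = 1
      · have hc : D.chi n w hw = one := MemLp.toLp_congr _ _
          (Eventually.of_forall fun p => by simp [ch, hw1])
        rw [hc, inner_eq_zero_symm]
        exact hrone
      · exact invariant_orthogonal e her (hchi n w hw) (by simpa using hw1)
    have hr0 : r = 0 := inner_self_eq_zero.1 (show innerSL ℂ r r = 0 from
      (horth.symm ▸ Submodule.mem_top : r ∈ LinearMap.ker (innerSL ℂ r : Lp ℂ 2 D.μ →ₗ[ℂ] ℂ)))
    have hfc : ∀ᵐ p ∂D.μ, s.indicator (fun _ => (1 : ℂ)) p = ⟪one, f⟫_ℂ := by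
      filter_upwards [indicatorConstLp_coeFn (p := 2) (μ := D.μ) (hs := hs)
          (hμs := measure_ne_top D.μ s) (c := (1 : ℂ)),
        Lp.coeFn_smul ⟪one, f⟫_ℂ one, (D.memLp_ch 0 (one_pow (D.h 0))).coeFn_toLp] with p h1 h2 h3
      rw [← h1]
      show f p = _
      conv_lhs => rw [show f = ⟪one, f⟫_ℂ • one from sub_eq_zero.1 hr0]
      rw [h2, Pi.smul_apply, hone, chi, h3]
      simp [ch]
    rw [eventuallyConst_set]
    by_cases h0 : ⟪one, f⟫_ℂ = 0
    · right
      filter_upwards [hfc] with p hp hps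
      rw [Set.indicator_of_mem hps, h0] at hp
      exact one_ne_zero hp
    · left
      filter_upwards [hfc] with p hp
      by_contra hps
      rw [Set.indicator_of_notMem hps] at hp
      exact h0 hp.symm

end Data

/-- Ultraflat sign polynomials give an ergodic probability-preserving transformation with a
Lebesgue component of multiplicity one next to eigenfunctions. -/
theorem exists_of_ultraflat (hU : P110.Exist.UltraflatGoal) :
    ∃ (α : Type) (_ : MeasurableSpace α) (_ : StandardBorelSpace α) (μ : Measure α)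
      (_ : IsProbabilityMeasure μ) (_ : NullSingletonClass μ) (T : α ≃ᵐ α)
      (hT : MeasurePreserving T μ μ), Ergodic T μ ∧ ShiftPlusEigen μ T hT := by
  obtain ⟨q, b, c, hq, hb, hc0, hcs, hct, hflat⟩ := exists_blocks hU
  let D : Data := ⟨q, b, hq, hb⟩
  obtain ⟨h1, h2⟩ := D.shiftPlusEigen hc0 ⟨hcs, hct⟩ hflat
  exact ⟨D.X, inferInstance, inferInstance, D.μ, inferInstance, inferInstance, D.T,
    D.measurePreserving_T, h2, h1⟩

end Vale.Agent.P130.Morse
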