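import Mathlib

/-!
# Odometers with a Morse cocycle

The odometer of the lengths `h n = q 0 ⋯ q (n - 1)`, the two-point extension by the cocycle of the
blocks given by sign words `b n` of length `q n`, and its invariant probability measure.
-/

noncomputable section

namespace Vale.Agent.P130.Morse

open MeasureTheory Filter Topology

/-- Lengths and words. -/
structure Data where
  q : ℕ → ℕ
  b : ℕ → ℕ → Bool
  two_le : ∀ n, 2 ≤ q n
  b_zero : ∀ n, b n 0 = false

namespace Data

variable (D : Data)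

/-- The height of tower `n`. -/
def h (n : ℕ) : ℕ := ∏ j ∈ Finset.range n, D.q j

lemma h_pos (n : ℕ) : 0 < D.h n :=
  Finset.prod_pos fun j _ => lt_of_lt_of_le two_pos (D.two_le j)

instance (n : ℕ) : NeZero (D.h n) := ⟨(D.h_pos n).ne'⟩

lemma h_zero : D.h 0 = 1 := Finset.prod_range_zero _

lemma h_succ (n : ℕ) : D.h (n + 1) = D.h n * D.q n := Finset.prod_range_succ _ n

lemma h_dvd (n : ℕ) : D.h n ∣ D.h (n + 1) := ⟨D.q n, D.h_succ n⟩

lemma two_pow_le_h (n : ℕ) : 2 ^ n ≤ D.h n := by
  rw [h, show 2 ^ n = ∏ _j ∈ Finset.range n, 2 by simp]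
  exact Finset.prod_le_prod' fun j _ => D.two_le j

lemma tendsto_h : Tendsto D.h atTop atTop :=
  tendsto_atTop_mono (fun n => (Nat.lt_two_pow_self).le.trans (D.two_pow_le_h n)) tendsto_id

/-- The coherent sequences of residues. -/
def grp : AddSubgroup (∀ n, Fin (D.h n)) where
  carrier := {x | ∀ n, (x (n + 1) : ℕ) % D.h n = (x n : ℕ)}
  zero_mem' := fun n => by simp
  add_mem' := fun {x y} hx hy n => by
    simp only [Pi.add_apply, Fin.val_add]
    rw [Nat.mod_mod_of_dvd _ (D.h_dvd n), Nat.add_mod, hx n, hy n]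
  neg_mem' := fun {x} hx n => by
    have h1 : ∀ m, ((-x) m : ℕ) + (x m : ℕ) ≡ 0 [MOD D.h m] := fun m => by
      have := congrArg Fin.val (neg_add_cancel (x m))
      rw [Fin.val_add, Fin.val_zero] at this
      simpa [Nat.ModEq] using this
    have h2 : ((-x) (n + 1) : ℕ) + (x n : ℕ) ≡ 0 [MOD D.h n] := by
      refine Nat.ModEq.trans ?_ ((h1 (n + 1)).of_dvd (D.h_dvd n))
      exact Nat.ModEq.add_left _ (by rw [← hx n]; exact Nat.mod_modEq _ _)
    have h3 := Nat.ModEq.add_right_cancel' _ (h2.trans (h1 n).symm)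
    rw [Nat.ModEq, Nat.mod_eq_of_lt ((-x) n).isLt] at h3
    exact h3

/-- The odometer group. -/
abbrev Om : Type := D.grp

lemma isClosed_grp : IsClosed (D.grp : Set (∀ n, Fin (D.h n))) := by
  have e : (D.grp : Set (∀ n, Fin (D.h n))) =
      ⋂ n, {x | (x (n + 1) : ℕ) % D.h n = (x n : ℕ)} := by
    ext x; simp only [Set.mem_iInter]; rfl
  rw [e]
  exact isClosed_iInter fun n => isClosed_eq
    ((continuous_of_discreteTopology (f := fun a : Fin (D.h (n + 1)) => (a : ℕ) % D.h n)).comp
      (continuous_apply (n + 1)))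
    ((continuous_of_discreteTopology (f := fun a : Fin (D.h n) => (a : ℕ))).comp (continuous_apply n))

instance : CompactSpace D.Om := isCompact_iff_compactSpace.1 D.isClosed_grp.isCompact

instance : PolishSpace D.Om := D.isClosed_grp.polishSpace

/-- The level of a point in tower `n`. -/
def lev (n : ℕ) (x : D.Om) : ℕ := (x.1 n : ℕ)

lemma lev_lt (n : ℕ) (x : D.Om) : D.lev n x < D.h n := (x.1 n).isLt

lemma lev_mod (n : ℕ) (x : D.Om) : D.lev (n + 1) x % D.h n = D.lev n x := x.2 n

lemma lev_mod_of_le {m n : ℕ} (hmn : m ≤ n) (x : D.Om) : D.lev n x % D.h m = D.lev m x := by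
  induction n, hmn using Nat.le_induction with
  | base => exact Nat.mod_eq_of_lt (D.lev_lt m x)
  | succ n hmn ih =>
    have hd : D.h m ∣ D.h n := Finset.prod_dvd_prod_of_subset _ _ _ (Finset.range_mono hmn)
    rw [← ih, ← D.lev_mod n x, Nat.mod_mod_of_dvd _ hd]

lemma lev_add (n : ℕ) (x y : D.Om) : D.lev n (x + y) = (D.lev n x + D.lev n y) % D.h n :=
  Fin.val_add _ _

lemma lev_zero (n : ℕ) : D.lev n 0 = 0 := rfl

lemma ext_lev {x y : D.Om} (h : ∀ n, D.lev n x = D.lev n y) : x = y :=
  Subtype.ext (funext fun n => Fin.ext (h n))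

lemma continuous_lev (n : ℕ) : Continuous (D.lev n) :=
  continuous_of_discreteTopology.comp ((continuous_apply n).comp continuous_subtype_val)

/-- An integer as a point. -/
def pt (i : ℕ) : D.Om :=
  ⟨fun n => ⟨i % D.h n, Nat.mod_lt _ (D.h_pos n)⟩, fun n => Nat.mod_mod_of_dvd i (D.h_dvd n)⟩

lemma lev_pt (n i : ℕ) : D.lev n (D.pt i) = i % D.h n := rfl

/-- The level set. -/
def cyl (n i : ℕ) : Set D.Om := {x | D.lev n x = i}

lemma measurableSet_cyl (n i : ℕ) : MeasurableSet (D.cyl n i) :=
  (measurableSet_singleton i).preimage (D.continuous_lev n).measurable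

/-! ### Haar measure -/

/-- The invariant probability measure of the odometer. -/
def haar : Measure D.Om :=
  Measure.addHaarMeasure (⊤ : TopologicalSpace.PositiveCompacts D.Om)

instance : IsProbabilityMeasure D.haar :=
  ⟨by simpa [haar] using Measure.addHaarMeasure_self (K₀ := (⊤ : TopologicalSpace.PositiveCompacts D.Om))⟩

instance : Measure.IsAddHaarMeasure D.haar := by unfold haar; infer_instance

lemma haar_cyl {n i : ℕ} (hi : i < D.h n) : D.haar (D.cyl n i) = (D.h n : ENNReal)⁻¹ := by
  have h1 : ∀ j < D.h n, D.haar (D.cyl n j) = D.haar (D.cyl n 0) := by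
    intro j hj
    rw [← measure_preimage_add D.haar (D.pt j) (D.cyl n j)]
    congr 1
    ext x
    simp only [cyl, Set.mem_preimage, Set.mem_ofPred_eq, lev_add, lev_pt, Nat.mod_eq_of_lt hj]
    constructor
    · intro hx
      have h2 : j + D.lev n x ≡ j + 0 [MOD D.h n] := by simpa [Nat.ModEq, Nat.mod_eq_of_lt hj] using hx
      exact Nat.ModEq.eq_of_lt_of_lt (Nat.ModEq.add_left_cancel' j h2) (D.lev_lt n x) (D.h_pos n)
    · intro hx
      rw [hx, add_zero, Nat.mod_eq_of_lt hj]
  have hsum : D.haar (⋃ j ∈ Finset.range (D.h n), D.cyl n j) =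
      ∑ j ∈ Finset.range (D.h n), D.haar (D.cyl n j) := by
    refine measure_biUnion_finset (fun a _ b _ hab => ?_) fun j _ => D.measurableSet_cyl n j
    exact Set.disjoint_left.2 fun x hx hx' => hab (hx.symm.trans hx')
  rw [show (⋃ j ∈ Finset.range (D.h n), D.cyl n j) = Set.univ from Set.eq_univ_of_forall fun x =>
    Set.mem_iUnion₂.2 ⟨D.lev n x, Finset.mem_range.2 (D.lev_lt n x), rfl⟩, measure_univ,
    Finset.sum_congr rfl fun j hj => h1 j (Finset.mem_range.1 hj), Finset.sum_const,
    Finset.card_range, nsmul_eq_mul] at hsum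
  rw [h1 i hi]
  exact ENNReal.eq_inv_of_mul_eq_one_left (by rw [mul_comm]; exact hsum.symm)

instance : NullSingletonClass D.haar := ⟨fun x => by
  refine le_antisymm (ENNReal.le_of_forall_pos_le_add fun ε hε _ => ?_) zero_le
  obtain ⟨k, hk⟩ := ENNReal.exists_inv_nat_lt (show (ε : ENNReal) ≠ 0 by simpa using hε.ne')
  obtain ⟨n, hn⟩ := (D.tendsto_h.eventually_ge_atTop k).exists
  calc D.haar {x} ≤ D.haar (D.cyl n (D.lev n x)) := measure_mono (by simp [cyl])
    _ = (D.h n : ENNReal)⁻¹ := D.haar_cyl (D.lev_lt n x)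
    _ ≤ (k : ENNReal)⁻¹ := ENNReal.inv_le_inv.2 (Nat.cast_le.2 hn)
    _ ≤ 0 + ε := by rw [zero_add]; exact hk.le⟩

/-! ### Blocks and the cocycle -/

/-- The block words: `β (n + 1)` is `β n` repeated with the signs of `b n`. -/
def beta : ℕ → ℕ → Bool
  | 0, _ => false
  | n + 1, i => xor (beta n (i % D.h n)) (D.b n (i / D.h n))

lemma beta_zero (n : ℕ) : D.beta n 0 = false := by
  induction n with
  | zero => rfl
  | succ n ih => simp [beta, ih, D.b_zero]

/-- The sign change in front of a level. -/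
def jump (n : ℕ) (x : D.Om) : Bool := xor (D.beta n (D.lev n x)) (D.beta n (D.lev n x - 1))

lemma jump_succ {n : ℕ} {x : D.Om} (hx : 1 ≤ D.lev n x) :
    1 ≤ D.lev (n + 1) x ∧ D.jump (n + 1) x = D.jump n x := by
  have hm := D.lev_mod n x
  have hd := Nat.mod_add_div (D.lev (n + 1) x) (D.h n)
  rw [hm] at hd
  refine ⟨by omega, ?_⟩
  have hlt := D.lev_lt n x
  set j := D.lev (n + 1) x / D.h n
  set i := D.lev n x
  have e : D.lev (n + 1) x - 1 = (i - 1) + D.h n * j := by omega
  have e1 : ∀ a < D.h n, D.beta (n + 1) (a + D.h n * j) = xor (D.beta n a) (D.b n j) := by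
    intro a ha
    simp [beta, Nat.mod_eq_of_lt ha, Nat.add_mul_div_left _ _ (D.h_pos n), Nat.div_eq_of_lt ha]
  show xor (D.beta (n + 1) (D.lev (n + 1) x)) (D.beta (n + 1) (D.lev (n + 1) x - 1)) = _
  rw [e, ← hd, e1 i hlt, e1 (i - 1) (by omega)]
  show _ = xor (D.beta n i) (D.beta n (i - 1))
  cases D.beta n i <;> cases D.beta n (i - 1) <;> cases D.b n j <;> rfl

lemma jump_of_le {m n : ℕ} (hmn : m ≤ n) {x : D.Om} (hx : 1 ≤ D.lev m x) :
    1 ≤ D.lev n x ∧ D.jump n x = D.jump m x := by
  induction n, hmn using Nat.le_induction with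
  | base => exact ⟨hx, rfl⟩
  | succ n _ ih => exact ⟨(D.jump_succ ih.1).1, (D.jump_succ ih.1).2.trans ih.2⟩

/-- The set where the cocycle changes the sign. -/
def flipSet : Set D.Om := ⋃ n, {x | 1 ≤ D.lev n x ∧ D.jump n x = true}

open Classical in
/-- The cocycle. -/
def coc (x : D.Om) : Bool := decide (x ∈ D.flipSet)

lemma coc_eq {n : ℕ} {x : D.Om} (hx : 1 ≤ D.lev n x) : D.coc x = D.jump n x := by
  classical
  rw [coc, Bool.eq_iff_iff, decide_eq_true_iff]
  constructor
  · intro h
    obtain ⟨m, hm, hj⟩ := Set.mem_iUnion.1 h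
    rcases le_total m n with hmn | hnm
    · rw [(D.jump_of_le hmn hm).2, hj]
    · rw [← (D.jump_of_le hnm hx).2, hj]
  · exact fun h => Set.mem_iUnion.2 ⟨n, hx, h⟩

lemma measurableSet_flipSet : MeasurableSet D.flipSet :=
  MeasurableSet.iUnion fun n => by
    have h : {x : D.Om | 1 ≤ D.lev n x ∧ D.jump n x = true} = D.lev n ⁻¹'
        {i | 1 ≤ i ∧ xor (D.beta n i) (D.beta n (i - 1)) = true} := rfl
    rw [h]
    exact MeasurableSet.of_discrete.preimage (D.continuous_lev n).measurable

lemma measurable_coc : Measurable D.coc := by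
  refine measurable_to_bool ?_
  convert D.measurableSet_flipSet
  ext x
  simp [coc]

/-! ### The extension -/

/-- The phase space. -/
abbrev X : Type := D.Om × Bool

/-- The measure of the extension. -/
def μ : Measure D.X :=
  D.haar.prod ((2 : ENNReal)⁻¹ • Measure.count)

instance : IsProbabilityMeasure ((2 : ENNReal)⁻¹ • (Measure.count : Measure Bool)) :=
  ⟨by
    rw [Measure.smul_apply, Measure.count_univ, smul_eq_mul]
    simp [ENNReal.inv_mul_cancel]⟩

instance : IsProbabilityMeasure D.μ := by unfold μ; infer_instance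

instance : NullSingletonClass D.μ := ⟨fun p => by
  rw [← Set.singleton_prod_singleton (a := p.1) (b := p.2), μ, Measure.prod_prod, measure_singleton,
    zero_mul]⟩

/-- One step back along the odometer, with the sign of the cocycle. -/
def T : D.X ≃ᵐ D.X where
  toFun p := (p.1 + -D.pt 1, xor p.2 (D.coc p.1))
  invFun p := (p.1 + D.pt 1, xor p.2 (D.coc (p.1 + D.pt 1)))
  left_inv p := by simp
  right_inv p := by simp
  measurable_toFun := (measurable_fst.add_const _).prodMk
    ((measurable_of_countable fun p : Bool × Bool => xor p.1 p.2).comp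
      (measurable_snd.prodMk (D.measurable_coc.comp measurable_fst)))
  measurable_invFun := (measurable_fst.add_const _).prodMk
    ((measurable_of_countable fun p : Bool × Bool => xor p.1 p.2).comp
      (measurable_snd.prodMk (D.measurable_coc.comp (measurable_fst.add_const _))))

lemma T_apply (x : D.Om) (s : Bool) : D.T (x, s) = (x + -D.pt 1, xor s (D.coc x)) := rfl

lemma measurePreserving_T : MeasurePreserving D.T D.μ D.μ := by
  refine MeasurePreserving.skew_product (measurePreserving_add_right D.haar (-D.pt 1))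
    (g := fun x s => xor s (D.coc x))
    ((measurable_of_countable fun p : Bool × Bool => xor p.1 p.2).comp
      (measurable_snd.prodMk (D.measurable_coc.comp measurable_fst))) (Eventually.of_forall fun x => ?_)
  refine Measure.ext_of_singleton fun s => ?_
  rw [Measure.map_apply (measurable_of_countable _) (measurableSet_singleton s)]
  have e : (fun t => xor t (D.coc x)) ⁻¹' {s} = {xor s (D.coc x)} := by
    ext t; cases t <;> cases s <;> cases D.coc x <;> simp
  rw [e]
  simp

lemma lev_sub_one {n : ℕ} {x : D.Om} :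
    (D.lev n (x + -D.pt 1) + 1) % D.h n = D.lev n x := by
  have h := congrArg (D.lev n) (neg_add_cancel_right x (D.pt 1))
  rw [lev_add, lev_pt, Nat.add_mod, Nat.mod_mod] at h
  rwa [← Nat.add_mod] at h

end Data

end Vale.Agent.P130.Morse
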