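import Mathlib

/-!
# Simple Lebesgue spectrum from nearly unimodular transition functions

`U` is unitary, the unit vectors `f n` are orthogonal to their first `h n` translates, and
`f n = Q n (U) f (n + 1)` with `|Q n|` close to one, with summable error, on the circle. Then one
vector has an orthonormal orbit with the same closed span as all the translates of the `f n`.
-/

noncomputable section

namespace Vale.Agent.P130.Morse

open Filter Topology
open scoped InnerProductSpace ComplexConjugate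

variable {H : Type*} [NormedAddCommGroup H] [InnerProductSpace ℂ H] [CompleteSpace H]

/-- The unit circle. -/
abbrev circ : Set ℂ := Metric.sphere 0 1

/-- The closed span of the orbit of a family of vectors under a unitary. -/
def orbitSpan (u : unitary (H →L[ℂ] H)) {ι : Type*} (f : ι → H) : Submodule ℂ H :=
  (Submodule.span ℂ (Set.range fun p : ℤ × ι => ((u ^ p.1 : unitary (H →L[ℂ] H)) : H →L[ℂ] H)
    (f p.2))).topologicalClosure

variable {u : unitary (H →L[ℂ] H)}

lemma spectrum_circ : spectrum ℂ (u : H →L[ℂ] H) ⊆ circ := Unitary.spectrum_subset_circle u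

lemma normal_unitary : IsStarNormal (u : H →L[ℂ] H) :=
  ⟨by exact (Unitary.coe_star_mul_self u).trans (Unitary.coe_mul_star_self u).symm⟩

lemma continuousOn_zpow_circ (k : ℤ) : ContinuousOn (fun z : ℂ => z ^ k) circ :=
  continuousOn_id.zpow₀ k fun z hz => Or.inl (ne_zero_of_mem_unit_sphere ⟨z, hz⟩)

lemma cfc_zpow_unitary (k : ℤ) :
    cfc (fun z : ℂ => z ^ k) (u : H →L[ℂ] H) = ((u ^ k : unitary (H →L[ℂ] H)) : H →L[ℂ] H) := by
  have hN : IsStarNormal (u : H →L[ℂ] H) := normal_unitary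
  have hn : ∀ n : ℕ, cfc (fun z : ℂ => z ^ n) (u : H →L[ℂ] H) =
      ((u ^ n : unitary (H →L[ℂ] H)) : H →L[ℂ] H) := fun n => by
    rw [SubmonoidClass.coe_pow, cfc_pow_id (R := ℂ) (u : H →L[ℂ] H) n]
  obtain ⟨n, rfl | rfl⟩ := k.eq_nat_or_neg
  · simpa using hn n
  · have hs := congrArg star (hn n)
    rw [← cfc_star] at hs
    rw [zpow_neg, zpow_natCast, ← Unitary.star_eq_inv, Unitary.coe_star, ← hs]
    refine cfc_congr fun z hz => ?_
    have h1 : ‖z‖ = 1 := mem_sphere_zero_iff_norm.1 (spectrum_circ hz)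
    rw [zpow_neg, zpow_natCast, star_pow, Complex.star_def, ← Complex.inv_eq_conj h1, inv_pow]

lemma mul_cfc_apply {g₁ g₂ : ℂ → ℂ} (h₁ : ContinuousOn g₁ circ) (h₂ : ContinuousOn g₂ circ)
    (v : H) : cfc g₁ (u : H →L[ℂ] H) (cfc g₂ (u : H →L[ℂ] H) v) =
      cfc (fun z => g₁ z * g₂ z) (u : H →L[ℂ] H) v := by
  rw [cfc_mul g₁ g₂ _ (h₁.mono spectrum_circ) (h₂.mono spectrum_circ)]
  rfl

/-- A closed subspace invariant under `u` and its inverse is invariant under the calculus. -/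
lemma cfc_mem (S : Submodule ℂ H) (hS : IsClosed (S : Set H))
    (h1 : ∀ v ∈ S, (u : H →L[ℂ] H) v ∈ S) (h2 : ∀ v ∈ S, star (u : H →L[ℂ] H) v ∈ S) (g : ℂ → ℂ)
    {v : H} (hv : v ∈ S) : cfc g (u : H →L[ℂ] H) v ∈ S := by
  let M : StarSubalgebra ℂ (H →L[ℂ] H) :=
    { carrier := {a | (∀ w ∈ S, a w ∈ S) ∧ ∀ w ∈ S, star a w ∈ S}
      mul_mem' := fun {a b} ha hb => ⟨fun w hw => ha.1 _ (hb.1 w hw), fun w hw => by
        rw [star_mul]; exact hb.2 _ (ha.2 w hw)⟩
      one_mem' := ⟨fun w hw => hw, fun w hw => by rwa [star_one]⟩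
      add_mem' := fun {a b} ha hb => ⟨fun w hw => S.add_mem (ha.1 w hw) (hb.1 w hw), fun w hw => by
        rw [star_add]; exact S.add_mem (ha.2 w hw) (hb.2 w hw)⟩
      zero_mem' := ⟨fun w _ => S.zero_mem, fun w _ => by rw [star_zero]; exact S.zero_mem⟩
      algebraMap_mem' := fun c => ⟨fun w hw => by
        simpa [Algebra.algebraMap_eq_smul_one] using S.smul_mem c hw, fun w hw => by
        simpa [Algebra.algebraMap_eq_smul_one] using S.smul_mem (conj c) hw⟩
      star_mem' := fun {a} ha => ⟨ha.2, fun w hw => by rw [star_star]; exact ha.1 w hw⟩ }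
  have hM : IsClosed (M : Set (H →L[ℂ] H)) := by
    have e : (M : Set (H →L[ℂ] H)) =
        (⋂ w ∈ S, {a : H →L[ℂ] H | a w ∈ S}) ∩ ⋂ w ∈ S, {a : H →L[ℂ] H | star a w ∈ S} := by
      ext a
      simp only [Set.mem_inter_iff, Set.mem_iInter, Set.mem_ofPred_eq]
      rfl
    rw [e]
    exact (isClosed_biInter fun w _ => hS.preimage (by fun_prop)).inter
      (isClosed_biInter fun w _ => hS.preimage (by fun_prop))
  have hu : (u : H →L[ℂ] H) ∈ M := ⟨h1, h2⟩
  have hmem : cfc g (u : H →L[ℂ] H) ∈ M :=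
    (StarAlgebra.elemental.le_of_mem hM hu) (cfc_mem_elemental g _)
  exact hmem.1 v hv

lemma mem_orbitSpan {ι : Type*} {f : ι → H} (k : ℤ) (i : ι) :
    ((u ^ k : unitary (H →L[ℂ] H)) : H →L[ℂ] H) (f i) ∈ orbitSpan u f :=
  Submodule.le_topologicalClosure _ (Submodule.subset_span ⟨(k, i), rfl⟩)

lemma orbitSpan_le {ι : Type*} {f : ι → H} {S : Submodule ℂ H} (hS : IsClosed (S : Set H))
    (h : ∀ (k : ℤ) (i : ι), ((u ^ k : unitary (H →L[ℂ] H)) : H →L[ℂ] H) (f i) ∈ S) :
    orbitSpan u f ≤ S :=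
  Submodule.topologicalClosure_minimal _
    (Submodule.span_le.2 (by rintro _ ⟨p, rfl⟩; exact h p.1 p.2)) hS

lemma isClosed_orbitSpan {ι : Type*} (f : ι → H) : IsClosed (orbitSpan u f : Set H) :=
  Submodule.isClosed_topologicalClosure _

lemma zpow_mem_orbitSpan {ι : Type*} {f : ι → H} (k : ℤ) {v : H} (hv : v ∈ orbitSpan u f) :
    ((u ^ k : unitary (H →L[ℂ] H)) : H →L[ℂ] H) v ∈ orbitSpan u f := by
  have hle : orbitSpan u f ≤ Submodule.comap
      (((u ^ k : unitary (H →L[ℂ] H)) : H →L[ℂ] H) : H →ₗ[ℂ] H) (orbitSpan u f) := by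
    refine orbitSpan_le ((isClosed_orbitSpan f).preimage (ContinuousLinearMap.continuous _))
      fun j i => ?_
    rw [Submodule.mem_comap]
    show ((u ^ k : unitary (H →L[ℂ] H)) : H →L[ℂ] H) _ ∈ _
    rw [← mul_apply_eq_comp, ← Submonoid.coe_mul, ← zpow_add]
    exact mem_orbitSpan _ _
  exact hle hv

lemma cfc_mem_orbitSpan {ι : Type*} {f : ι → H} (g : ℂ → ℂ) {v : H} (hv : v ∈ orbitSpan u f) :
    cfc g (u : H →L[ℂ] H) v ∈ orbitSpan u f := by
  refine cfc_mem _ (isClosed_orbitSpan f) (fun w hw => ?_) (fun w hw => ?_) g hv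
  · simpa using zpow_mem_orbitSpan 1 hw
  · simpa [Unitary.coe_star, ← Unitary.star_eq_inv] using zpow_mem_orbitSpan (-1) hw

variable (u) in
/-- The hypotheses of the criterion. -/
structure Flat (f : ℕ → H) (h : ℕ → ℕ) (Q : ℕ → ℂ → ℂ) (c : ℕ → ℝ) : Prop where
  norm_eq : ∀ n, ‖f n‖ = 1
  orth : ∀ n (k : ℤ), k ≠ 0 → |k| < h n →
    ⟪f n, ((u ^ k : unitary (H →L[ℂ] H)) : H →L[ℂ] H) (f n)⟫_ℂ = 0
  tendsto : Tendsto h atTop atTop
  cont : ∀ n, ContinuousOn (Q n) circ
  step : ∀ n, f n = cfc (Q n) (u : H →L[ℂ] H) (f (n + 1))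
  err_nonneg : ∀ n, 0 ≤ c n
  err : ∀ n, ∀ z ∈ circ, |‖Q n z‖ - 1| ≤ c n
  err_sum : Summable c ∧ ∑' n, c n ≤ 1 / 4

variable {f : ℕ → H} {h : ℕ → ℕ} {Q : ℕ → ℂ → ℂ} {c : ℕ → ℝ}

/-- The product of the first `n` transition functions. -/
def prodQ (Q : ℕ → ℂ → ℂ) (n : ℕ) (z : ℂ) : ℂ := ∏ j ∈ Finset.range n, Q j z

namespace Flat

variable (hF : Flat u f h Q c)
include hF

lemma continuousOn_prod (n : ℕ) : ContinuousOn (prodQ Q n) circ :=
  continuousOn_finsetProd _ fun j _ => hF.cont j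

lemma f_zero (n : ℕ) : f 0 = cfc (prodQ Q n) (u : H →L[ℂ] H) (f n) := by
  have hN : IsStarNormal (u : H →L[ℂ] H) := normal_unitary
  induction n with
  | zero =>
    rw [show prodQ Q 0 = fun _ => (1 : ℂ) from funext fun z => Finset.prod_range_zero _,
      cfc_const_one ℂ (u : H →L[ℂ] H)]
    rfl
  | succ n ih =>
    rw [ih, hF.step n, mul_cfc_apply (hF.continuousOn_prod n) (hF.cont n)]
    congr 2
    exact funext fun z => (Finset.prod_range_succ _ _).symm

lemma sum_le (n : ℕ) : ∑ j ∈ Finset.range n, c j ≤ 1 / 4 :=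
  (hF.err_sum.1.sum_le_tsum _ fun j _ => hF.err_nonneg j).trans hF.err_sum.2

lemma norm_prod_bounds {z : ℂ} (hz : z ∈ circ) (n : ℕ) :
    3 / 4 ≤ ‖prodQ Q n z‖ ∧ ‖prodQ Q n z‖ ≤ 2 := by
  have key : ∀ n, 1 - ∑ j ∈ Finset.range n, c j ≤ ‖prodQ Q n z‖ ∧
      ‖prodQ Q n z‖ ≤ 1 + 2 * ∑ j ∈ Finset.range n, c j := by
    intro n
    induction n with
    | zero => simp [prodQ]
    | succ n ih =>
      have hq := abs_le.1 (hF.err n z hz)
      have hs := hF.sum_le n
      have h0 : 0 ≤ ∑ j ∈ Finset.range n, c j := Finset.sum_nonneg fun j _ => hF.err_nonneg j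
      have hcn := hF.err_nonneg n
      rw [prodQ, Finset.prod_range_succ, norm_mul, Finset.sum_range_succ]
      rw [show (∏ j ∈ Finset.range n, Q j z) = prodQ Q n z from rfl]
      constructor
      · nlinarith [ih.1, ih.2, norm_nonneg (prodQ Q n z), norm_nonneg (Q n z)]
      · nlinarith [ih.1, ih.2, norm_nonneg (prodQ Q n z), norm_nonneg (Q n z)]
  constructor <;> linarith [(key n).1, (key n).2, hF.sum_le n]

omit hF in
/-- The limit of the moduli of the products. -/
def rho (Q : ℕ → ℂ → ℂ) (z : ℂ) : ℝ := limUnder atTop fun n => ‖prodQ Q n z‖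

lemma tendsto_rho : TendstoUniformlyOn (fun n z => ‖prodQ Q n z‖) (rho Q) atTop circ := by
  have hcau : UniformCauchySeqOn (fun n z => ‖prodQ Q n z‖) atTop circ := by
    have hd : ∀ n, ∀ z ∈ circ, |‖prodQ Q (n + 1) z‖ - ‖prodQ Q n z‖| ≤ 2 * c n := by
      intro n z hz
      rw [prodQ, Finset.prod_range_succ, norm_mul,
        show (∏ j ∈ Finset.range n, Q j z) = prodQ Q n z from rfl,
        ← mul_sub_one, abs_mul, abs_of_nonneg (norm_nonneg _)]
      exact mul_le_mul (hF.norm_prod_bounds hz n).2 (hF.err n z hz) (abs_nonneg _) zero_le_two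
    rw [Metric.uniformCauchySeqOn_iff]
    intro ε hε
    obtain ⟨N, hN⟩ := Metric.cauchySeq_iff.1
      (hF.err_sum.1.mul_left 2).hasSum.tendsto_sum_nat.cauchySeq ε hε
    refine ⟨N, fun m hm n hn z hz => ?_⟩
    wlog hmn : m ≤ n generalizing m n
    · rw [dist_comm]; exact this n hn m hm (le_of_not_ge hmn)
    refine lt_of_le_of_lt ?_ (hN n hn m hm)
    refine (dist_le_Ico_sum_of_dist_le (f := fun j => ‖prodQ Q j z‖) hmn (d := fun j => 2 * c j) fun {j} _ _ => ?_).trans ?_
    · rw [dist_comm]; exact hd j z hz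
    · rw [Real.dist_eq, Finset.sum_Ico_eq_sub _ hmn]
      exact le_abs_self _
  refine hcau.tendstoUniformlyOn_of_tendsto fun z hz => ?_
  exact (hcau.cauchySeq hz).tendsto_limUnder

lemma rho_bounds {z : ℂ} (hz : z ∈ circ) : 3 / 4 ≤ rho Q z := by
  exact ge_of_tendsto ((hF.tendsto_rho).tendsto_at hz)
    (Eventually.of_forall fun n => (hF.norm_prod_bounds hz n).1)

lemma continuousOn_rho : ContinuousOn (rho Q) circ :=
  hF.tendsto_rho.continuousOn (Frequently.of_forall fun n => (hF.continuousOn_prod n).norm)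

/-- **The criterion.** -/
theorem exists_lebesgue : ∃ v : H,
    Orthonormal ℂ (fun k : ℤ => ((u ^ k : unitary (H →L[ℂ] H)) : H →L[ℂ] H) v) ∧
      orbitSpan u (fun _ : Unit => v) = orbitSpan u f := by
  have hN : IsStarNormal (u : H →L[ℂ] H) := normal_unitary
  have hr : ContinuousOn (fun z => ((rho Q z : ℂ))⁻¹) circ :=
    (Complex.continuous_ofReal.comp_continuousOn hF.continuousOn_rho).inv₀ fun z hz => by
      simp only [Function.comp_apply, Ne, Complex.ofReal_eq_zero]
      linarith [hF.rho_bounds hz]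
  let ψ : ℕ → ℂ → ℂ := fun n z => ((rho Q z : ℂ))⁻¹ * prodQ Q n z
  have hψ : ∀ n, ContinuousOn (ψ n) circ := fun n => hr.mul (hF.continuousOn_prod n)
  set v := cfc (fun z => ((rho Q z : ℂ))⁻¹) (u : H →L[ℂ] H) (f 0) with hv
  have hvn : ∀ n, v = cfc (ψ n) (u : H →L[ℂ] H) (f n) := fun n => by
    rw [hv, hF.f_zero n, mul_cfc_apply hr (hF.continuousOn_prod n)]
  -- correlations
  have hcor : ∀ k : ℤ, ⟪v, ((u ^ k : unitary (H →L[ℂ] H)) : H →L[ℂ] H) v⟫_ℂ =
      if k = 0 then 1 else 0 := by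
    intro k
    have e : ∀ n, ⟪v, ((u ^ k : unitary (H →L[ℂ] H)) : H →L[ℂ] H) v⟫_ℂ =
        ⟪f n, cfc (fun z => star (ψ n z) * (z ^ k * ψ n z)) (u : H →L[ℂ] H) (f n)⟫_ℂ := fun n => by
      rw [hvn n, ← cfc_zpow_unitary, mul_cfc_apply (continuousOn_zpow_circ k) (hψ n),
        ← ContinuousLinearMap.adjoint_inner_right, ← ContinuousLinearMap.star_eq_adjoint,
        ← cfc_star, mul_cfc_apply (g₁ := fun z => star (ψ n z)) (g₂ := fun z => z ^ k * ψ n z)
          (hψ n).star ((continuousOn_zpow_circ k).mul (hψ n))]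
    have hlim : Tendsto (fun n =>
        ⟪f n, cfc (fun z => star (ψ n z) * (z ^ k * ψ n z)) (u : H →L[ℂ] H) (f n)⟫_ℂ -
          ⟪f n, ((u ^ k : unitary (H →L[ℂ] H)) : H →L[ℂ] H) (f n)⟫_ℂ) atTop (𝓝 0) := by
      rw [tendsto_zero_iff_norm_tendsto_zero, Metric.tendsto_atTop]
      intro ε hε
      obtain ⟨N, hN'⟩ := eventually_atTop.1
        (Metric.tendstoUniformlyOn_iff.1 hF.tendsto_rho (ε / 20) (by positivity))
      refine ⟨N, fun n hn => ?_⟩
      rw [dist_zero_right, norm_norm]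
      have hc1 : ContinuousOn (fun z => star (ψ n z) * (z ^ k * ψ n z)) circ :=
        (hψ n).star.mul ((continuousOn_zpow_circ k).mul (hψ n))
      rw [← cfc_zpow_unitary, ← inner_sub_right, ← sub_apply,
        ← cfc_sub _ _ (u : H →L[ℂ] H) (hc1.mono spectrum_circ)
          ((continuousOn_zpow_circ k).mono spectrum_circ)]
      refine lt_of_le_of_lt (norm_inner_le_norm _ _) ?_
      rw [hF.norm_eq, one_mul]
      refine lt_of_le_of_lt (ContinuousLinearMap.le_opNorm _ _) ?_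
      rw [hF.norm_eq, mul_one]
      refine lt_of_le_of_lt (norm_cfc_le (c := ε / 2) (by positivity) fun z hz => ?_) (by linarith)
      have hz1 : z ∈ circ := spectrum_circ hz
      have h1 : ‖z ^ k‖ = 1 := by rw [norm_zpow, mem_sphere_zero_iff_norm.1 hz1, one_zpow]
      have e2 : star (ψ n z) * (z ^ k * ψ n z) - z ^ k =
          z ^ k * ((((‖prodQ Q n z‖ / rho Q z) ^ 2 - 1 : ℝ)) : ℂ) := by
        have e3 : star (ψ n z) * ψ n z = (((‖prodQ Q n z‖ / rho Q z) ^ 2 : ℝ) : ℂ) := by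
          rw [Complex.star_def, Complex.conj_mul', norm_mul, norm_inv, Complex.norm_real,
            Real.norm_of_nonneg (by linarith [hF.rho_bounds hz1]), ← div_eq_inv_mul]
          push_cast; ring
        push_cast at e3 ⊢
        rw [← e3]; ring
      rw [e2, norm_mul, h1, one_mul, Complex.norm_real, Real.norm_eq_abs]
      have hρ := hF.rho_bounds hz1
      have hd := hN' n hn z hz1
      rw [Real.dist_eq] at hd
      have hb := hF.norm_prod_bounds hz1 n
      set a := ‖prodQ Q n z‖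
      set r := rho Q z
      rw [show (a / r) ^ 2 - 1 = (a - r) * (a + r) / r ^ 2 by field_simp; ring, abs_div, abs_mul,
        abs_of_pos (by positivity : 0 < r ^ 2), div_le_iff₀ (by positivity),
        abs_of_pos (by linarith : 0 < a + r)]
      have h2 : |a - r| * (a + r) ≤ ε / 20 * (2 + r) := by
        rw [abs_sub_comm]
        exact mul_le_mul hd.le (by linarith [hb.2]) (by linarith) (by positivity)
      have h3 : 2 + r ≤ 10 * r ^ 2 := by nlinarith
      nlinarith [h2, mul_le_mul_of_nonneg_left h3 hε.le]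
    have hev : ∀ᶠ n in atTop, ⟪f n, ((u ^ k : unitary (H →L[ℂ] H)) : H →L[ℂ] H) (f n)⟫_ℂ =
        if k = 0 then 1 else 0 := by
      filter_upwards [hF.tendsto.eventually_gt_atTop k.natAbs] with n hn
      split_ifs with hk
      · subst hk
        rw [zpow_zero, OneMemClass.coe_one, one_apply_eq_self, inner_self_eq_norm_sq_to_K,
          hF.norm_eq]
        simp
      · exact hF.orth n k hk (by rw [Int.abs_eq_natAbs]; exact_mod_cast hn)
    refine sub_eq_zero.1 (tendsto_nhds_unique (tendsto_const_nhds (f := (atTop : Filter ℕ)))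
      (hlim.congr' ?_))
    filter_upwards [hev] with n hn
    rw [hn, ← e n]
  refine ⟨v, ?_, le_antisymm ?_ ?_⟩
  · rw [orthonormal_iff_ite]
    intro i j
    rw [← ContinuousLinearMap.adjoint_inner_right, ← ContinuousLinearMap.star_eq_adjoint,
      ← Unitary.coe_star, Unitary.star_eq_inv, ← zpow_neg, ← mul_apply_eq_comp,
      ← Submonoid.coe_mul, ← zpow_add, hcor]
    exact if_congr (by omega) rfl rfl
  · refine orbitSpan_le (isClosed_orbitSpan f) fun k _ => zpow_mem_orbitSpan k ?_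
    rw [hv]
    refine cfc_mem_orbitSpan _ ?_
    simpa using mem_orbitSpan (u := u) (f := f) 0 0
  · refine orbitSpan_le (isClosed_orbitSpan _) fun k n => zpow_mem_orbitSpan k ?_
    have hne : ∀ z ∈ circ, ψ n z ≠ 0 := fun z hz => by
      have hb := (hF.norm_prod_bounds hz n).1
      have hρ := hF.rho_bounds hz
      refine mul_ne_zero (inv_ne_zero (Complex.ofReal_ne_zero.2 (by linarith))) fun h0 => ?_
      rw [h0, norm_zero] at hb
      linarith
    have hi : ContinuousOn (fun z => (ψ n z)⁻¹) circ := (hψ n).inv₀ hne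
    have e : f n = cfc (fun z => (ψ n z)⁻¹) (u : H →L[ℂ] H) v := by
      rw [hvn n, mul_cfc_apply hi (hψ n)]
      rw [cfc_congr (g := fun _ => (1 : ℂ)) fun z hz => inv_mul_cancel₀ (hne z (spectrum_circ hz)),
        cfc_const_one ℂ (u : H →L[ℂ] H), one_apply_eq_self]
    rw [e]
    exact cfc_mem_orbitSpan _ (by simpa using mem_orbitSpan (u := u) (f := fun _ : Unit => v) 0 ())

end Flat

end Vale.Agent.P130.Morse
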