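import Vale.Agent.P130.Morse.Odometer
import Vale.Agent.P130.Morse.Spectral
import Vale.Agent.P130.Morse.Koopman
import Vale.Agent.P130.Morse.Blocks

/-!
# The tower vectors and the characters of the extension of the odometer

`G n i` is the normalized signed indicator of level `i` of tower `n`. The Koopman operator moves
it to level `i + 1`, and each level of tower `n` is split into the levels of tower `n + 1`.
-/

noncomputable section

namespace Vale.Agent.P130.Morse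

open MeasureTheory Filter Topology
open scoped InnerProductSpace ComplexConjugate

lemma norm_sgn (s : Bool) : ‖sgn s‖ = 1 := by cases s <;> simp [sgn]

lemma sgn_mul (s t : Bool) : sgn s * sgn t = sgn (xor s t) := by cases s <;> cases t <;> simp [sgn]

namespace Data

variable (D : Data)

/-- The Koopman unitary of the extension. -/
def u : unitary (Lp ℂ 2 D.μ →L[ℂ] Lp ℂ 2 D.μ) := koopman D.T D.measurePreserving_T

/-- The signed indicator of a level, normalized. -/
def g (n i : ℕ) (p : D.X) : ℂ :=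
  if D.lev n p.1 = i then sgn (xor p.2 (D.beta n i)) * (Real.sqrt (D.h n) : ℂ) else 0

lemma measurable_g (n i : ℕ) : Measurable (D.g n i) :=
  (measurable_of_countable fun q : ℕ × Bool =>
      if q.1 = i then sgn (xor q.2 (D.beta n i)) * (Real.sqrt (D.h n) : ℂ) else 0).comp
    (((D.continuous_lev n).measurable.comp measurable_fst).prodMk measurable_snd)

lemma memLp_g (n i : ℕ) : MemLp (D.g n i) 2 D.μ :=
  MemLp.of_bound (D.measurable_g n i).aestronglyMeasurable (Real.sqrt (D.h n))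
    (Eventually.of_forall fun p => by
      unfold g
      split_ifs <;> simp [norm_sgn, abs_of_nonneg, Real.sqrt_nonneg])

/-- The tower vectors. -/
def G (n i : ℕ) : Lp ℂ 2 D.μ := (D.memLp_g n i).toLp _

/-- A character of the tower `n`. -/
def ch (n : ℕ) (w : ℂ) (p : D.X) : ℂ := w ^ D.lev n p.1

lemma measurable_ch (n : ℕ) (w : ℂ) : Measurable (D.ch n w) :=
  (measurable_of_countable fun m : ℕ => w ^ m).comp
    ((D.continuous_lev n).measurable.comp measurable_fst)

lemma norm_eq_one_of_pow_h {n : ℕ} {w : ℂ} (hw : w ^ D.h n = 1) : ‖w‖ = 1 :=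
  (pow_eq_one_iff_of_nonneg (norm_nonneg w) (D.h_pos n).ne').1 (by rw [← norm_pow, hw, norm_one])

lemma memLp_ch (n : ℕ) {w : ℂ} (hw : w ^ D.h n = 1) : MemLp (D.ch n w) 2 D.μ :=
  MemLp.of_bound (D.measurable_ch n w).aestronglyMeasurable 1
    (Eventually.of_forall fun p => by simp [ch, D.norm_eq_one_of_pow_h hw])

/-- The character as a vector. -/
def chi (n : ℕ) (w : ℂ) (hw : w ^ D.h n = 1) : Lp ℂ 2 D.μ := (D.memLp_ch n hw).toLp _

/-! ### Action of the unitary -/

lemma g_comp_T {n i : ℕ} (hi : i + 1 < D.h n) (p : D.X) :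
    D.g n i (D.T p) = D.g n (i + 1) p := by
  obtain ⟨x, s⟩ := p
  rw [T_apply]
  simp only [g]
  have hm := D.lev_sub_one (n := n) (x := x)
  set l := D.lev n (x + -D.pt 1)
  have hl : l < D.h n := D.lev_lt n _
  by_cases h : l = i
  · have hx : D.lev n x = i + 1 := by rw [← hm, h, Nat.mod_eq_of_lt hi]
    rw [if_pos h, if_pos hx, D.coc_eq (n := n) (by omega), jump, hx, Nat.add_sub_cancel]
    cases s <;> cases D.beta n (i + 1) <;> cases D.beta n i <;> rfl
  · rw [if_neg h, if_neg]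
    intro hx
    rcases Nat.lt_or_ge (l + 1) (D.h n) with h1 | h1
    · rw [Nat.mod_eq_of_lt h1] at hm; omega
    · rw [show l + 1 = D.h n by omega, Nat.mod_self] at hm; omega

lemma u_G {n i : ℕ} (hi : i + 1 < D.h n) :
    (D.u : Lp ℂ 2 D.μ →L[ℂ] Lp ℂ 2 D.μ) (D.G n i) = D.G n (i + 1) := by
  rw [u, G, koopman_toLp]
  exact MemLp.toLp_congr _ _ (Eventually.of_forall fun p => D.g_comp_T hi p)

lemma pow_u_G (n : ℕ) : ∀ m < D.h n,
    ((D.u ^ m : unitary (Lp ℂ 2 D.μ →L[ℂ] Lp ℂ 2 D.μ)) : Lp ℂ 2 D.μ →L[ℂ] Lp ℂ 2 D.μ) (D.G n 0) =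
      D.G n m := by
  intro m
  induction m with
  | zero => intro _; simp
  | succ m ih =>
    intro hm
    rw [pow_succ', Submonoid.coe_mul, mul_apply_eq_comp, ih (by omega), D.u_G hm]

lemma ch_comp_T {n : ℕ} {w : ℂ} (hw : w ^ D.h n = 1) (p : D.X) :
    D.ch n w (D.T p) = w⁻¹ * D.ch n w p := by
  have hw0 : w ≠ 0 := norm_ne_zero_iff.1 (by rw [D.norm_eq_one_of_pow_h hw]; exact one_ne_zero)
  obtain ⟨x, s⟩ := p
  rw [T_apply, ch, ch]
  show w ^ D.lev n (x + -D.pt 1) = w⁻¹ * w ^ D.lev n x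
  conv_rhs => rw [← D.lev_sub_one (n := n) (x := x), ← pow_eq_pow_mod _ hw, pow_succ']
  rw [inv_mul_cancel_left₀ hw0]

lemma u_chi {n : ℕ} {w : ℂ} (hw : w ^ D.h n = 1) :
    (D.u : Lp ℂ 2 D.μ →L[ℂ] Lp ℂ 2 D.μ) (D.chi n w hw) = w⁻¹ • D.chi n w hw := by
  rw [u, chi, koopman_toLp, ← MemLp.toLp_const_smul]
  exact MemLp.toLp_congr _ _ (Eventually.of_forall fun p => D.ch_comp_T hw p)

/-! ### Orthonormality and the transition -/

lemma inner_G {n i j : ℕ} (hi : i < D.h n) :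
    ⟪D.G n i, D.G n j⟫_ℂ = if i = j then 1 else 0 := by
  rw [L2.inner_def]
  have hset : MeasurableSet (D.cyl n i ×ˢ (Set.univ : Set Bool)) :=
    (D.measurableSet_cyl n i).prod MeasurableSet.univ
  have e : (fun p => ⟪(D.G n i : D.X → ℂ) p, (D.G n j : D.X → ℂ) p⟫_ℂ) =ᵐ[D.μ]
      (D.cyl n i ×ˢ (Set.univ : Set Bool)).indicator
        fun _ => if i = j then (D.h n : ℂ) else 0 := by
    filter_upwards [(D.memLp_g n i).coeFn_toLp, (D.memLp_g n j).coeFn_toLp] with p h1 h2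
    rw [G, G, h1, h2, RCLike.inner_apply]
    by_cases hp : D.lev n p.1 = i
    · rw [Set.indicator_of_mem (show p ∈ D.cyl n i ×ˢ (Set.univ : Set Bool) from
        ⟨hp, Set.mem_univ _⟩)]
      by_cases hij : i = j
      · subst hij
        simp only [g, hp, if_true]
        have hs : ∀ t, sgn t * conj (sgn t) = 1 := fun t => by cases t <;> simp [sgn]
        rw [map_mul, Complex.conj_ofReal, mul_mul_mul_comm, hs, one_mul, ← Complex.ofReal_mul,
          Real.mul_self_sqrt (Nat.cast_nonneg _), Complex.ofReal_natCast]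
      · simp [g, hp, hij]
    · rw [Set.indicator_of_notMem (fun h : p ∈ D.cyl n i ×ˢ (Set.univ : Set Bool) => hp h.1)]
      simp [g, hp]
  rw [integral_congr_ae e, integral_indicator_const _ hset]
  have hμ : D.μ.real (D.cyl n i ×ˢ (Set.univ : Set Bool)) = (D.h n : ℝ)⁻¹ := by
    rw [measureReal_def, μ, Measure.prod_prod, D.haar_cyl hi, measure_univ, mul_one,
      ENNReal.toReal_inv, ENNReal.toReal_natCast]
  rw [hμ]
  have h0 : (D.h n : ℂ) ≠ 0 := Nat.cast_ne_zero.2 (D.h_pos n).ne'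
  split_ifs <;> simp [h0]

lemma g_split {n i : ℕ} (hi : i < D.h n) (p : D.X) :
    D.g n i p = ∑ j ∈ Finset.range (D.q n),
      sgn (D.b n j) / (Real.sqrt (D.q n) : ℂ) * D.g (n + 1) (i + j * D.h n) p := by
  have hm := D.lev_mod n p.1
  have hl := D.lev_lt (n + 1) p.1
  set l := D.lev (n + 1) p.1 with hl'
  by_cases h : D.lev n p.1 = i
  · have hj : l / D.h n < D.q n := Nat.div_lt_of_lt_mul (by rw [← D.h_succ]; exact hl)
    rw [Finset.sum_eq_single_of_mem (l / D.h n) (Finset.mem_range.2 hj)]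
    · have e : i + l / D.h n * D.h n = l := by
        rw [← h, ← hm, mul_comm]; exact Nat.mod_add_div l (D.h n)
      have hb : D.beta (n + 1) l = xor (D.beta n i) (D.b n (l / D.h n)) := by
        simp [beta, hm, h]
      simp only [g, h, e, ← hl', if_true, hb]
      have hs : sgn (D.b n (l / D.h n)) * sgn (xor p.2 (xor (D.beta n i) (D.b n (l / D.h n)))) =
          sgn (xor p.2 (D.beta n i)) := by
        rw [sgn_mul]
        cases p.2 <;> cases D.beta n i <;> cases D.b n (l / D.h n) <;> rfl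
      have hq : (Real.sqrt (D.q n) : ℂ) ≠ 0 := Complex.ofReal_ne_zero.2
        (Real.sqrt_ne_zero'.2 (Nat.cast_pos.2 (lt_of_lt_of_le two_pos (D.two_le n))))
      rw [D.h_succ, Nat.cast_mul, Real.sqrt_mul (Nat.cast_nonneg _), Complex.ofReal_mul, ← hs]
      field_simp
    · intro j _ hne
      simp only [g, ← hl']
      rw [if_neg, mul_zero]
      intro he
      exact hne (by rw [he, Nat.add_mul_div_right _ _ (D.h_pos n), Nat.div_eq_of_lt hi, zero_add])
  · rw [g, if_neg h]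
    refine (Finset.sum_eq_zero fun j _ => ?_).symm
    simp only [g, ← hl']
    rw [if_neg, mul_zero]
    intro he
    exact h (by rw [← hm, he, Nat.add_mul_mod_self_right, Nat.mod_eq_of_lt hi])

lemma G_split {n i : ℕ} (hi : i < D.h n) :
    D.G n i = ∑ j ∈ Finset.range (D.q n),
      (sgn (D.b n j) / (Real.sqrt (D.q n) : ℂ)) • D.G (n + 1) (i + j * D.h n) := by
  refine Lp.ext ?_
  have hall : ∀ᵐ p ∂D.μ, ∀ j : ℕ,
      ((sgn (D.b n j) / (Real.sqrt (D.q n) : ℂ)) • D.G (n + 1) (i + j * D.h n) :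
          Lp ℂ 2 D.μ) p =
        sgn (D.b n j) / (Real.sqrt (D.q n) : ℂ) * D.g (n + 1) (i + j * D.h n) p := by
    rw [ae_all_iff]
    intro j
    filter_upwards [Lp.coeFn_smul (sgn (D.b n j) / (Real.sqrt (D.q n) : ℂ))
      (D.G (n + 1) (i + j * D.h n)), (D.memLp_g (n + 1) (i + j * D.h n)).coeFn_toLp] with p h1 h2
    rw [h1, Pi.smul_apply, G, h2, smul_eq_mul]
  filter_upwards [(D.memLp_g n i).coeFn_toLp, hall,
    Lp.coeFn_finsetSum (Finset.range (D.q n))
      fun j => (sgn (D.b n j) / (Real.sqrt (D.q n) : ℂ)) • D.G (n + 1) (i + j * D.h n)]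
    with p h1 h2 h3
  rw [G, h1, D.g_split hi p, h3]
  simp only [Finset.sum_apply, h2]

/-- The transition function from tower `n + 1` to tower `n`. -/
def Q (n : ℕ) (z : ℂ) : ℂ :=
  ∑ j ∈ Finset.range (D.q n), sgn (D.b n j) / (Real.sqrt (D.q n) : ℂ) * z ^ (j * D.h n)

lemma continuousOn_Q (n : ℕ) : ContinuousOn (D.Q n) circ :=
  continuousOn_finsetSum _ fun j _ => continuousOn_const.mul (continuousOn_id.pow _)

lemma step_Q (n : ℕ) : D.G n 0 = cfc (D.Q n) (D.u : Lp ℂ 2 D.μ →L[ℂ] Lp ℂ 2 D.μ) (D.G (n + 1) 0) := by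
  have hN : IsStarNormal (D.u : Lp ℂ 2 D.μ →L[ℂ] Lp ℂ 2 D.μ) := normal_unitary
  have e : D.Q n = ∑ j ∈ Finset.range (D.q n),
      fun z : ℂ => sgn (D.b n j) / (Real.sqrt (D.q n) : ℂ) * z ^ (j * D.h n) := by
    funext z; simp [Q]
  rw [e, cfc_sum (fun j (z : ℂ) => sgn (D.b n j) / (Real.sqrt (D.q n) : ℂ) * z ^ (j * D.h n)) _ _
      fun j _ => continuousOn_const.mul (continuousOn_id.pow _),
    D.G_split (D.h_pos n), sum_apply]
  refine Finset.sum_congr rfl fun j hj => ?_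
  rw [cfc_const_mul _ (fun z : ℂ => z ^ (j * D.h n)) _ (continuous_pow _).continuousOn,
    cfc_pow_id (R := ℂ) (D.u : Lp ℂ 2 D.μ →L[ℂ] Lp ℂ 2 D.μ) (j * D.h n), zero_add,
    ← SubmonoidClass.coe_pow, smul_apply, D.pow_u_G]
  rw [D.h_succ, mul_comm (D.h n)]
  exact mul_lt_mul_of_pos_right (Finset.mem_range.1 hj) (D.h_pos n)

lemma orth_G (n : ℕ) (k : ℤ) (hk : k ≠ 0) (hk' : |k| < D.h n) :
    ⟪D.G n 0, ((D.u ^ k : unitary (Lp ℂ 2 D.μ →L[ℂ] Lp ℂ 2 D.μ)) : Lp ℂ 2 D.μ →L[ℂ] Lp ℂ 2 D.μ)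
      (D.G n 0)⟫_ℂ = 0 := by
  obtain ⟨m, rfl | rfl⟩ := k.eq_nat_or_neg
  · have hm : m < D.h n := by rw [Nat.abs_cast] at hk'; exact_mod_cast hk'
    rw [zpow_natCast, D.pow_u_G n m hm, D.inner_G (D.h_pos n), if_neg]
    exact fun h => hk (by simp [← h])
  · have hm : m < D.h n := by rw [abs_neg, Nat.abs_cast] at hk'; exact_mod_cast hk'
    rw [zpow_neg, zpow_natCast, ← Unitary.star_eq_inv, Unitary.coe_star,
      ContinuousLinearMap.star_eq_adjoint, ContinuousLinearMap.adjoint_inner_right,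
      D.pow_u_G n m hm, D.inner_G hm, if_neg]
    exact fun h => hk (by simp [h])

lemma norm_G_zero (n : ℕ) : ‖D.G n 0‖ = 1 := by
  have h := D.inner_G (n := n) (j := 0) (D.h_pos n)
  rw [if_pos rfl, inner_self_eq_norm_sq_to_K] at h
  refine (pow_eq_one_iff_of_nonneg (norm_nonneg _) two_ne_zero).1 (Complex.ofReal_injective ?_)
  simpa using h

theorem flat {c : ℕ → ℝ} (hc0 : ∀ n, 0 ≤ c n) (hc : Summable c ∧ ∑' n, c n ≤ 1 / 4)
    (hflat : ∀ n (z : ℂ), ‖z‖ = 1 →
      |‖∑ j ∈ Finset.range (D.q n), sgn (D.b n j) * z ^ j‖ / Real.sqrt (D.q n) - 1| ≤ c n) :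
    Flat D.u (fun n => D.G n 0) D.h D.Q c where
  norm_eq := D.norm_G_zero
  orth := D.orth_G
  tendsto := D.tendsto_h
  cont := D.continuousOn_Q
  step := D.step_Q
  err_nonneg := hc0
  err n z hz := by
    have hz1 : ‖z ^ D.h n‖ = 1 := by rw [norm_pow, mem_sphere_zero_iff_norm.1 hz, one_pow]
    have e : ‖D.Q n z‖ = ‖∑ j ∈ Finset.range (D.q n), sgn (D.b n j) * (z ^ D.h n) ^ j‖ /
        Real.sqrt (D.q n) := by
      rw [Q, ← Complex.norm_of_nonneg (Real.sqrt_nonneg (D.q n)), ← norm_div, Finset.sum_div]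
      refine congrArg norm (Finset.sum_congr rfl fun j _ => ?_)
      rw [← pow_mul, mul_comm (D.h n), div_mul_eq_mul_div, Complex.norm_of_nonneg (Real.sqrt_nonneg _)]
    rw [e]
    exact hflat n _ hz1
  err_sum := hc

end Data

end Vale.Agent.P130.Morse
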